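import Mathlib
import Vale.Agent.Lib.P033.Linked

/-!
A circulant Hadamard matrix of order `4 * (p ^ a * q ^ b) ^ 2`, for odd primes `p ≠ q`, forces
`q ^ (p - 1) ≡ 1 mod p ^ (2 * a)` and `p ^ (q - 1) ≡ 1 mod q ^ (2 * b)`.
-/

theorem Vale.Agent.Results.P033.TwoPrimeWieferich.result (p q a b : ℕ) (hp : p.Prime)
    (hq : q.Prime) (hpq : p ≠ q) (ha : 1 ≤ a) (hb : 1 ≤ b) (hu : Odd (p ^ a * q ^ b)) (h : ℕ → ℤ)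
    (hsign : ∀ j, j < 4 * (p ^ a * q ^ b) ^ 2 → h j = 1 ∨ h j = -1)
    (hauto : ∀ t, 1 ≤ t → t < 4 * (p ^ a * q ^ b) ^ 2 →
      ∑ j ∈ Finset.range (4 * (p ^ a * q ^ b) ^ 2),
        h j * h ((j + t) % (4 * (p ^ a * q ^ b) ^ 2)) = 0) :
    q ^ (p - 1) ≡ 1 [MOD p ^ (2 * a)] ∧ p ^ (q - 1) ≡ 1 [MOD q ^ (2 * b)] :=
  Vale.Agent.Lib.P033.two_prime p q a b hp hq hpq ha hb hu h hsign hauto
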