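import Mathlib
import Vale.Agent.Lib.P033.Linked

/-!
Let `u = p ^ a * w` be odd with `p` prime, `a ≥ 1`, `p` coprime to `w`, and let `h` be the first row
of a circulant Hadamard matrix of order `4 * u ^ 2`.  Suppose that each prime `q` dividing `w` has
an exponent `E` with `q ^ E ≡ 1` modulo the square of the `q`-free part of `w` but
`q ^ ((p - 1) * E) ≢ 1` modulo `p ^ (2 * a)`.  Then `p ^ 2 * φ(w) ≤ (p + 1) * w`.
-/

theorem Vale.Agent.Results.P033.UnlinkedPrime.result (p a w : ℕ) (hp : p.Prime) (ha : 1 ≤ a)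
    (hpw : p.Coprime w) (hu : Odd (p ^ a * w)) (h : ℕ → ℤ)
    (hsign : ∀ j, j < 4 * (p ^ a * w) ^ 2 → h j = 1 ∨ h j = -1)
    (hauto : ∀ t, 1 ≤ t → t < 4 * (p ^ a * w) ^ 2 →
      ∑ j ∈ Finset.range (4 * (p ^ a * w) ^ 2), h j * h ((j + t) % (4 * (p ^ a * w) ^ 2)) = 0)
    (hnl : ∀ q : ℕ, q.Prime → q ∣ w →
      ∃ E : ℕ, q ^ E ≡ 1 [MOD (w / q ^ w.factorization q) ^ 2] ∧
        ¬ q ^ ((p - 1) * E) ≡ 1 [MOD p ^ (2 * a)]) :
    p ^ 2 * w.totient ≤ (p + 1) * w :=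
  Vale.Agent.Lib.P033.unlinked_bound p a w hp ha hpw hu h hsign hauto hnl
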