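import Vale.Agent.Results.P033.DescentBound
import Vale.Agent.Results.P033.TwoPrimeWieferich
import Vale.Agent.Results.P033.UnlinkedPrime

/-- The three results on circulant Hadamard matrices, stated together. -/
theorem Vale.Agent.Results.P033.A0Conj.result :
    (type_of% @Vale.Agent.Results.P033.DescentBound.result) ∧
    (type_of% @Vale.Agent.Results.P033.TwoPrimeWieferich.result) ∧
    (type_of% @Vale.Agent.Results.P033.UnlinkedPrime.result) :=
  ⟨@Vale.Agent.Results.P033.DescentBound.result,
    @Vale.Agent.Results.P033.TwoPrimeWieferich.result,
    @Vale.Agent.Results.P033.UnlinkedPrime.result⟩
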