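import Mathlib
import Vale.Agent.Lib.P033.Assemble

/-!
Let `h` be the first row of a circulant Hadamard matrix of order `4 * u ^ 2` with `u` odd.
Let `F` divide `u ^ 2` with the same prime divisors as `u`, and suppose that every integer `t`
coprime to `u` with `t ≡ 1 mod F` lies, for every prime `q` dividing `u`, in the subgroup
generated by `q` modulo the `q`-free part of `u ^ 2`.  Then for each prime `p` dividing `u` we
have `p ^ 2 * u * φ(u) ≤ (p ^ 2 - 1) * F`.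
-/

theorem Vale.Agent.Results.P033.DescentBound.result (u : ℕ) (hu : Odd u) (h : ℕ → ℤ)
    (hsign : ∀ j, j < 4 * u ^ 2 → h j = 1 ∨ h j = -1)
    (hauto : ∀ t, 1 ≤ t → t < 4 * u ^ 2 →
      ∑ j ∈ Finset.range (4 * u ^ 2), h j * h ((j + t) % (4 * u ^ 2)) = 0)
    (F : ℕ) (hF : F ∣ u ^ 2) (hrad : ∀ r : ℕ, r.Prime → r ∣ u → r ∣ F)
    (hdesc : ∀ t : ℕ, t.Coprime u → t ≡ 1 [MOD F] → ∀ q : ℕ, q.Prime → q ∣ u →
      ∃ e : ℕ, q ^ e ≡ t [MOD u ^ 2 / q ^ (u ^ 2).factorization q])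
    (p : ℕ) (hp : p.Prime) (hpu : p ∣ u) :
    p ^ 2 * (u * u.totient) ≤ (p ^ 2 - 1) * F :=
  Vale.Agent.Lib.P033.main_nat u hu h hsign hauto F hF hrad hdesc p hp hpu
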